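import Crest.Agent.X262.KV.Mod
import Crest.Agent.X277.Link.VfA

/-!
# Row 262, K3CHI (helper80), part 1: lifting when `H¹(K) = 0`

* `NoV P b` : there is no vector field with values in `K`;
* `hl_mod`  : then sections of `K + T` on a reduced snc divisor `T` lift;
* `hl_fc`   : the case of one component.
-/

set_option autoImplicit false

open WithZero Filter Topology Set
open scoped KaehlerDifferential

noncomputable section

namespace Crest.Agent.X262.K3c

open Crest.Agent.R275.Geo Crest.Agent.R275.Core144 Crest.Agent.R273.Defs_333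
open Crest.Agent.R273.GreenM_5 (ci mem_ci)
open Crest.Agent.X277 Crest.Agent.X277.Lef Crest.Agent.X277.Res.Out Crest.Agent.X277.AN.G1
  Crest.Agent.X277.Res.Log Crest.Agent.X277.AN.G1.AnP Crest.Agent.X277.Link
open Crest.Agent.X277.BD.Br (At oP kP)
open Crest.Agent.X262.FG Crest.Agent.X262.KV

variable {F : Type} [Field F] [Algebra ℂ F] {P : PModel ℂ F} {n : ℕ}

/-- there is no regular vector field with values in the canonical bundle -/
def NoV (P : PModel ℂ F) (b : Module.Basis (Fin n) F Ω[F⁄ℂ]) : Prop :=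
  ∀ ξ : Derivation ℂ F F, (∀ x : Pts P, ∃ z, (lp x).Crd z ∧
    ∀ f ∈ (lp x).O, ξ f / jac b z ∈ (lp x).O) → ξ = 0

open Classical in
/-- **lifting from a reduced snc divisor** -/
theorem hl_mod {B : Bd P n} {T : Finset B.ι} {g : Pts P → F} {u : B.ι → Pts P → F}
    {b : Module.Basis (Fin n) F Ω[F⁄ℂ]} (hV : NoV P b)
    (hg : ∀ x, At (kP P b + dvs B fun e => if e ∈ T then 1 else 0) x (g x)) (hu : Loc B T g u) :
    ∃ f ∈ (kP P b + dvs B fun e => if e ∈ T then 1 else 0).Sec,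
      ∀ e ∈ T, ∀ x, On (B.v e) x → B.v e ((f - u e x) / g x) < 1 := by
  choose z hz using fun x : Pts P => exists_crd b x
  obtain ⟨X, c₀, a⟩ := exists_adB B b
  borelize (Pts P)
  have hT := a.gn_monF fun e => if e ∈ T then 1 else 0
  have hφ : Gn (X.kF b * a.monF fun e => if e ∈ T then 1 else 0) g :=
    ((gn_kF b hz).mul hT).congr fun x =>
      un_iff.2 ((hg x).ev_div_ne ((BD.Br.at_kP b (hz x)).add (at_dvs B _ x)))
  have h1 : RegS (1 : X.frm) univ 1 := fun _ _ _ _ => by simp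
  have h2 : ∀ x, sec (1 : X.frm) 1 (ci X.A x) x ≠ 0 := fun x => by
    simp [sec_eq _ _ (mem_ci (A := X.A) x), ev]
  have h3 := a.sec_monF (fun e => if e ∈ T then 1 else 0) h1
  simp only [mul_one, Nat.cast_ite, Nat.cast_one, Nat.cast_zero, pow_ite, pow_one, pow_zero,
    Finset.prod_ite_mem, Finset.univ_inter] at h3
  rcases (AN.HL.dich_snc (R273.FS_333.fsKah X.Pr) X.PA a.isHS_sE (a.snc b) (t := T) (m := 1)
    (d := fun _ => 0) one_pos (fun _ => one_pos) (fun _ _ => one_pos) (u := {()})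
    (N := X.lbF (X.kF b)) (σ := fun _ => sec 1 1) (τ := fun _ => sec 1 1)
    (fun _ _ => isHS_sec h1) (fun x => ⟨(), by simp, h2 x⟩)
    (fun _ _ => by
      rw [KB_eq X b, inv_mul_cancel, one_pow, ← map_one X.lbF]
      exact isHS_sec h1)
    (fun _ _ => by simp) (isHS_sec h3.1) (isHS_sec h1) h2 h3.2).snc (isHS_sec h3.1) a.isHS_sE
    (a.snc b) (isHS_sec h1) h2 h3.2 (φ := dat B T _ u) fun e he x hx => by
      rw [← map_mul]
      exact dat_loc a hu hφ he ((a.sE_eq_zero (mem_ci x)).1 hx) with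
    ⟨E, hE, h4⟩ | ⟨v, hv, -, -, i, x, hx, -, -, h4⟩
  · rw [← map_mul] at hE
    obtain ⟨f, hf, rfl⟩ := gaga _ hE
    have hf' : f ∈ (kP P b + dvs B fun e => if e ∈ T then 1 else 0).Sec :=
      BD.Br.mem_Sec_of fun x => ⟨_, hg x, hφ.regS_iff.1 hf x trivial⟩
    refine ⟨f, hf', fun e he x hx => hu.lt_of_val hg hf' he (fun y hy => ?_) hx⟩
    have h5 := mem_ci (A := X.A) y
    have h6 := h4 e he _ y h5 ((a.sE_eq_zero h5).2 hy)
    rwa [dat_eq hu hφ he h5 hy, hφ.sec_eq_iff h5] at h6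
  · obtain ⟨ξ, hξ⟩ := Vf.exists_rep b hv.1
    obtain rfl := hV ξ fun y => ⟨_, X.crd _ y (mem_ci y), fun f hf =>
      fr_kF b (mem_ci (A := X.A) y) ▸ (hξ _ y (mem_ci y) f hf).1⟩
    refine absurd ?_ h4
    rw [hξ.dv_sec hx (h3.1 i x hx trivial), Derivation.zero_apply, zero_div, ev, LP.v_zero]

theorem NoV.chg {b : Module.Basis (Fin n) F Ω[F⁄ℂ]} (h : NoV P b)
    (b' : Module.Basis (Fin n) F Ω[F⁄ℂ]) : NoV P b' := fun ξ hξ => by
  have h1 := det_basis_ne_zero b b'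
  refine (smul_eq_zero.1 (h (b.det b' • ξ) fun x => (hξ x).imp fun z hz =>
    ⟨hz.1, fun f hf => ?_⟩)).resolve_left h1
  convert hz.2 f hf using 1
  rw [Derivation.smul_apply, smul_eq_mul, jac_change b b', mul_div_mul_left _ _ h1]

open Classical in
/-- **sections of the canonical divisor of a component lift** -/
theorem hl_fc {B : Bd P (n + 1)} {b : Module.Basis (Fin (n + 1)) F Ω[F⁄ℂ]} {e : B.ι} {E : Type}
    [Field E] [Algebra ℂ E] (Φ : Fc B b e E) (hV : NoV P b) {s' : E}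
    (hs : s' ∈ (kP Φ.P' Φ.b').Sec) :
    ∃ s ∈ (kP P b + dvs B (Pi.single e 1)).Sec, Φ.p.r s = s' := by
  have hT : (fun e' => if e' ∈ ({e} : Finset B.ι) then (1 : ℤ) else 0) = Pi.single e 1 :=
    funext fun e' => by simp [Pi.single_apply]
  choose g hg using (add_mem (BD.Br.kP_mem b) (dvs_mem B (Pi.single e 1)) : _ ∈ BD.Br.On P)
  have h0 : od B e (kP P b + dvs B (Pi.single e 1)) = 0 := by simp [Φ.od_K]
  have h1 : ∀ x, On (B.v e) x → Φ.p.v (g x) = 1 := fun x hx => by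
    rw [Φ.v_eq, ← vl_of_at (hg x) hx, vl_eq_one_iff, h0]
  have h2 : ∀ x, ∃ w, On (B.v e) x → w / g x ∈ (lp x).O ∧ Φ.p.v w ≤ 1 ∧ Φ.p.r w = s' := by
    intro x
    by_cases hx : On (B.v e) x
    · obtain ⟨x', hx'⟩ := Φ.down x hx
      have h3 : At (kP Φ.P' Φ.b') x' (Φ.p.r (g x)) := fun W hW => by
        have h4 : (pl Φ.p).V = BD.rz (B.v e) (triv B e) :=
          Subtype.ext (congrArg Valuation.valuationSubring Φ.v_eq)
        have h5 : ∀ f, (pl Φ.p).r f = Φ.p.r f := fun f => by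
          by_cases h : Φ.p.v f ≤ 1
          · exact ((pl Φ.p).r_eq h).trans (Φ.p.r_eq h).symm
          · rw [Plc.r, dif_neg h]
            exact dif_neg h
        rw [← Φ.res_K, BD.Pl.val_res (h4 ▸ od_eq_zero.1 h0) (hg x ((pl Φ.p).cm W) fun f hf =>
          ⟨hx'.le f hf, by rw [h5]; exact hW _ (hx'.mem f hf)⟩), h5]
      obtain ⟨w, h4, h5⟩ := hx'.surj _ (h3.div_mem hs)
      refine ⟨w * g x, fun _ => ⟨by rwa [mul_div_cancel_right₀ _ (hg x).ne],
        Φ.p.v_mul_le (hx'.le w h4) (h1 x hx).le, ?_⟩⟩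
      rw [Φ.p.r_mul (hx'.le w h4) (h1 x hx).le, h5, div_mul_cancel₀ _ h3.ne]
    · exact ⟨0, fun h => absurd h hx⟩
  choose u hu using h2
  obtain ⟨f, hf, h3⟩ := hl_mod (T := {e}) (u := fun _ => u) hV (hT ▸ hg) ⟨fun e' he' x hx =>
    (hu x (Finset.mem_singleton.1 he' ▸ hx)).1, fun e' he' x x' hx hx' => by
      rw [Finset.mem_singleton.1 he'] at hx hx' ⊢
      rw [← Φ.v_eq, map_div₀, h1 x hx, div_one, ← Φ.p.r_eq_r (hu x hx).2.1 (hu x' hx').2.1,
        (hu x hx).2.2, (hu x' hx').2.2], fun _ _ _ _ _ _ _ => rfl⟩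
  rw [hT] at hf
  obtain ⟨x, hx⟩ := B.ne e
  have h4 := h3 e (Finset.mem_singleton_self e) x hx
  rw [← Φ.v_eq, map_div₀, h1 x hx, div_one] at h4
  have h5 : Φ.p.v f ≤ 1 := by
    rw [← sub_add_cancel f (u x)]
    exact Φ.p.v_add_le h4.le (hu x hx).2.1
  exact ⟨f, hf, ((Φ.p.r_eq_r h5 (hu x hx).2.1).2 h4).trans (hu x hx).2.2⟩

end Crest.Agent.X262.K3c
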